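import Mathlib

/-!
# P262: Banaszczyk's operation `K * u` for symmetric convex bodies
-/

namespace Vale.Agent.Ban

open MeasureTheory ProbabilityTheory Set
open scoped ENNReal

/-- `K * u` (in any real vector space) -/
def bstar {V : Type*} [AddCommGroup V] [Module ℝ V] (K : Set V) (u : V) : Set V :=
  {x | ∃ l : ℝ, -2 ≤ l ∧ l ≤ 2 ∧ x + (l - 1) • u ∈ K ∧ x + (l + 1) • u ∈ K}

/-- the standard Gaussian measure on `Fin n → ℝ` -/
noncomputable def gam (n : ℕ) : Measure (Fin n → ℝ) := Measure.pi fun _ => gaussianReal 0 1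

/-- the standard Gaussian measure on `ℝ` -/
noncomputable abbrev g1 : Measure ℝ := gaussianReal 0 1

/-- the Gaussian density -/
noncomputable abbrev ph (s : ℝ) : ℝ := gaussianPDFReal 0 1 s

/-- fibre of `K` over `y` -/
def fib {n : ℕ} (K : Set (ℝ × (Fin n → ℝ))) (y : Fin n → ℝ) : Set ℝ := {s | (s, y) ∈ K}

/-- one-dimensional window condition: some `[c - σ, c + σ] ⊆ I` with `|c| ≤ s` -/
def win (I : Set ℝ) (s σ : ℝ) : Prop := ∃ c : ℝ, |c| ≤ s ∧ Icc (c - σ) (c + σ) ⊆ I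

/-- the set `E(s, σ)` -/
def EE {n : ℕ} (K : Set (ℝ × (Fin n → ℝ))) (s σ : ℝ) : Set (Fin n → ℝ) :=
  {y | win (fib K y) s σ}

/-- the set `A` -/
def AA {n : ℕ} (K : Set (ℝ × (Fin n → ℝ))) (t : ℝ) : Set (Fin n → ℝ) :=
  {y | ∃ c : ℝ, Icc (c - t) (c + t) ⊆ fib K y}

end Vale.Agent.Ban
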