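import Vale.Agent.Ban.Defs

/-!
# P262: statements of the parts (Banaszczyk's prefix theorem)
-/

namespace Vale.Agent.Ban.Stub

open MeasureTheory ProbabilityTheory Set
open scoped ENNReal

/-! PartP: Prekopa-Leindler at the midpoint for the Gaussian measure -/

theorem gam_midpoint {n : ℕ} {A B C : Set (Fin n → ℝ)} (hA : MeasurableSet A)
    (hB : MeasurableSet B) (hC : MeasurableSet C)
    (H : ∀ x ∈ A, ∀ y ∈ B, (1 / 2 : ℝ) • (x + y) ∈ C) :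
    gam n A * gam n B ≤ (gam n C) ^ 2 := by sorry

/-! PartQ: geometry of `bstar` -/

theorem bstar_subset {V : Type*} [AddCommGroup V] [Module ℝ V] {K : Set V} (hK : Convex ℝ K)
    {u x : V} (hx : x ∈ bstar K u) : x + u ∈ K ∨ x - u ∈ K := by sorry

theorem bstar_convex {V : Type*} [AddCommGroup V] [Module ℝ V] {K : Set V} (hK : Convex ℝ K)
    (u : V) : Convex ℝ (bstar K u) := by sorry

theorem bstar_symm {V : Type*} [AddCommGroup V] [Module ℝ V] {K : Set V}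
    (hK : ∀ x ∈ K, -x ∈ K) (u : V) : ∀ x ∈ bstar K u, -x ∈ bstar K u := by sorry

theorem bstar_compact {V : Type*} [NormedAddCommGroup V] [NormedSpace ℝ V] {K : Set V}
    (hK : IsCompact K) (u : V) : IsCompact (bstar K u) := by sorry

/-- compatibility of `bstar` with linear equivalences -/
theorem bstar_image {V W : Type*} [AddCommGroup V] [Module ℝ V] [AddCommGroup W] [Module ℝ W]
    (e : V ≃ₗ[ℝ] W) (K : Set V) (u : V) : e '' bstar K u = bstar (e '' K) (e u) := by sorry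

/-! PartW: one-dimensional facts -/

/-- `∫_x^∞ s φ(s) ds = φ(x)` -/
theorem lintegral_w (x : ℝ) (hx : 0 ≤ x) :
    ∫⁻ s in Ioi x, ENNReal.ofReal (s * ph s) = ENNReal.ofReal (ph x) := by sorry

/-- (L5) -/
theorem loss {I : Set ℝ} (hI : IsCompact I) (hc : Convex ℝ I) {t : ℝ} (ht : 0 < t)
    (hA : ¬ ∃ c : ℝ, Icc (c - t) (c + t) ⊆ I) :
    g1 I ≤ ENNReal.ofReal (2 * t) *
      ∫⁻ s in Ioi (0 : ℝ), ({s | win I s 0}.indicator (fun s => ENNReal.ofReal (s * ph s)) s) := by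
  sorry

/-- (L6); `bstar I t` is the one-dimensional `bstar` -/
theorem gain {I : Set ℝ} (hI : IsCompact I) (hc : Convex ℝ I) {t : ℝ} (ht : 0 < t)
    (hA : ∃ c : ℝ, Icc (c - t) (c + t) ⊆ I) :
    g1 I + ENNReal.ofReal t * ∫⁻ s in Ioi (9 * t),
      ({s | win I (7 * s / 8) t ∧ ¬ win I 0 (8 * t)}.indicator
        (fun s => ENNReal.ofReal (s * ph s)) s) ≤ g1 (bstar I t) := by
  sorry

/-- `γ₁[-1,1] ≤ 4/5` -/
theorem g1_Icc : g1 (Icc (-1) 1) ≤ ENNReal.ofReal (4 / 5) := by sorry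

/-- `φ(0)/φ(9t) ≤ 12/5` for `t ≤ 1/8` -/
theorem ph_ratio {t : ℝ} (h0 : 0 ≤ t) (h1 : t ≤ 1 / 8) : ph 0 ≤ 12 / 5 * ph (9 * t) := by sorry

/-! PartE: the sets `E(s, σ)` -/

variable {n : ℕ} {K : Set (ℝ × (Fin n → ℝ))}

/-- (L2) -/
theorem EE_midpoint (hc : Convex ℝ K) {s s' σ σ' : ℝ} (hσ : 0 ≤ σ) (hσ' : 0 ≤ σ')
    {y y' : Fin n → ℝ} (hy : y ∈ EE K s σ) (hy' : y' ∈ EE K s' σ') :
    (1 / 2 : ℝ) • (y + y') ∈ EE K ((s + s') / 2) ((σ + σ') / 2) := by sorry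

theorem EE_mono {s s' σ σ' : ℝ} (hs : s ≤ s') (hσ : σ' ≤ σ) : EE K s σ ⊆ EE K s' σ' := by sorry

/-- joint measurability -/
theorem EE_measurable (hK : IsCompact K) (a : ℝ) (ha : 0 ≤ a) (σ : ℝ) :
    MeasurableSet {p : ℝ × (Fin n → ℝ) | p.2 ∈ EE K (a * p.1) σ} := by sorry

theorem AA_measurable (hK : IsCompact K) (t : ℝ) : MeasurableSet (AA K t) := by sorry

/-- (L3) -/
theorem EE_ge (hK : IsCompact K) (hc : Convex ℝ K) (hs : ∀ x ∈ K, -x ∈ K)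
    (hγ : ENNReal.ofReal (49 / 50) ≤ (g1.prod (gam n)) K) {t : ℝ} (h0 : 0 < t) (h1 : t ≤ 1 / 8) :
    ENNReal.ofReal (4 / 5) ≤ gam n (EE K 0 (8 * t)) := by sorry

/-- (L4) -/
theorem chain (hK : IsCompact K) (hc : Convex ℝ K) {t s : ℝ} (h0 : 0 < t) (hs : 0 ≤ s)
    (h45 : ENNReal.ofReal (4 / 5) ≤ gam n (EE K 0 (8 * t))) :
    ENNReal.ofReal (24 / 5) * gam n (EE K s 0 \ EE K (7 * s / 8) t) ≤
      gam n (EE K (7 * s / 8) t \ EE K 0 (8 * t)) := by sorry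

/-! PartC: the core lemma -/

theorem core (hK : IsCompact K) (hc : Convex ℝ K) (hs : ∀ x ∈ K, -x ∈ K)
    (hγ : ENNReal.ofReal (49 / 50) ≤ (g1.prod (gam n)) K) {t : ℝ} (h0 : 0 < t) (h1 : t ≤ 1 / 8) :
    (g1.prod (gam n)) K ≤ (g1.prod (gam n)) (bstar K (t, 0)) := by sorry

/-! PartT: transfer to Euclidean space -/

theorem bstar_measure {d : ℕ} {K : Set (EuclideanSpace ℝ (Fin d))} (hK : IsCompact K)
    (hc : Convex ℝ K) (hs : ∀ x ∈ K, -x ∈ K)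
    (hγ : ENNReal.ofReal (49 / 50) ≤ stdGaussian (EuclideanSpace ℝ (Fin d)) K)
    {u : EuclideanSpace ℝ (Fin d)} (hu : ‖u‖ ≤ 1 / 8) :
    stdGaussian (EuclideanSpace ℝ (Fin d)) K ≤
      stdGaussian (EuclideanSpace ℝ (Fin d)) (bstar K u) := by sorry

/-! PartB: Banaszczyk's prefix theorem -/

theorem banaszczyk {d N : ℕ} (u : ℕ → EuclideanSpace ℝ (Fin d)) (hu : ∀ i < N, ‖u i‖ ≤ 1 / 8)
    (C : ℕ → Set (EuclideanSpace ℝ (Fin d)))
    (hC : ∀ k, 1 ≤ k → k ≤ N → IsCompact (C k) ∧ Convex ℝ (C k) ∧ ∀ x ∈ C k, -x ∈ C k)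
    (hγ : ∑ k ∈ Finset.Icc 1 N, stdGaussian (EuclideanSpace ℝ (Fin d)) (C k)ᶜ ≤
      ENNReal.ofReal (1 / 50)) :
    ∃ ε : ℕ → ℝ, (∀ i, ε i = 1 ∨ ε i = -1) ∧
      ∀ k, 1 ≤ k → k ≤ N → ∑ i ∈ Finset.range k, ε i • u i ∈ C k := by sorry

end Vale.Agent.Ban.Stub
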