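import Vale.Agent.Ban.Defs
import Vale.Agent.Ban.Stub

/-!
# P262: transfer of the core lemma to Euclidean space
-/

namespace Vale.Agent.Ban

open MeasureTheory ProbabilityTheory Set
open Vale.Agent.Ban.Stub
open scoped ENNReal

/-- the splitting of the first coordinate -/
noncomputable def spl (n : ℕ) : EuclideanSpace ℝ (Fin (n + 1)) ≃L[ℝ] ℝ × (Fin n → ℝ) :=
  (PiLp.continuousLinearEquiv 2 ℝ (fun _ : Fin (n + 1) => ℝ)).trans
    (Fin.consEquivL ℝ (fun _ : Fin (n + 1) => ℝ)).symm

theorem spl_apply (n : ℕ) (x : EuclideanSpace ℝ (Fin (n + 1))) :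
    spl n x = (x 0, fun i : Fin n => x i.succ) := by
  rfl

theorem spl_single (n : ℕ) (t : ℝ) :
    spl n (EuclideanSpace.single (0 : Fin (n + 1)) t) = (t, 0) := by
  rw [spl_apply]
  ext i
  · simp
  · simp

theorem spl_map (n : ℕ) :
    (stdGaussian (EuclideanSpace ℝ (Fin (n + 1)))).map (spl n) = g1.prod (gam n) := by
  rw [← map_pi_eq_stdGaussian, Measure.map_map (spl n).continuous.measurable (by fun_prop)]
  have h := (measurePreserving_piFinSuccAbove
    (fun _ : Fin (n + 1) => gaussianReal 0 1) 0).map_eq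
  have h2 : (spl n : EuclideanSpace ℝ (Fin (n + 1)) → ℝ × (Fin n → ℝ)) ∘ (WithLp.toLp 2) =
      MeasurableEquiv.piFinSuccAbove (fun _ : Fin (n + 1) => ℝ) 0 := by
    funext x
    simp only [Function.comp_apply, spl_apply]
    ext i
    · simp [MeasurableEquiv.piFinSuccAbove]
    · simp [MeasurableEquiv.piFinSuccAbove, Fin.tail]
  rw [h2, h]
  rfl

theorem bstar_measure {d : ℕ} {K : Set (EuclideanSpace ℝ (Fin d))} (hK : IsCompact K)
    (hc : Convex ℝ K) (hs : ∀ x ∈ K, -x ∈ K)
    (hγ : ENNReal.ofReal (49 / 50) ≤ stdGaussian (EuclideanSpace ℝ (Fin d)) K)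
    {u : EuclideanSpace ℝ (Fin d)} (hu : ‖u‖ ≤ 1 / 8) :
    stdGaussian (EuclideanSpace ℝ (Fin d)) K ≤
      stdGaussian (EuclideanSpace ℝ (Fin d)) (bstar K u) := by
  rcases eq_or_ne u 0 with rfl | hu0
  · exact measure_mono fun x hx =>
      ⟨0, by norm_num, by norm_num, by simpa using hx, by simpa using hx⟩
  cases d with
  | zero => exact absurd (Subsingleton.elim u 0) hu0
  | succ n =>
    have hw : ‖u‖ = ‖(EuclideanSpace.single 0 ‖u‖ : EuclideanSpace ℝ (Fin (n + 1)))‖ := by simp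
    obtain ⟨R, hR⟩ : ∃ R : EuclideanSpace ℝ (Fin (n + 1)) ≃ₗᵢ[ℝ] EuclideanSpace ℝ (Fin (n + 1)),
        R u = EuclideanSpace.single 0 ‖u‖ := ⟨_, Submodule.reflection_sub hw⟩
    obtain ⟨e, he⟩ : ∃ e : EuclideanSpace ℝ (Fin (n + 1)) ≃L[ℝ] ℝ × (Fin n → ℝ),
        ∀ x, e x = spl n (R x) := ⟨R.toContinuousLinearEquiv.trans (spl n), fun x => rfl⟩
    have hemap : (stdGaussian (EuclideanSpace ℝ (Fin (n + 1)))).map e = g1.prod (gam n) := by
      have h1 : (e : EuclideanSpace ℝ (Fin (n + 1)) → ℝ × (Fin n → ℝ)) = spl n ∘ R := by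
        funext x
        exact he x
      rw [h1, ← Measure.map_map (spl n).continuous.measurable R.continuous.measurable,
        stdGaussian_map, spl_map]
    have himg : ∀ S : Set (EuclideanSpace ℝ (Fin (n + 1))),
        (g1.prod (gam n)) (e '' S) = stdGaussian (EuclideanSpace ℝ (Fin (n + 1))) S := by
      intro S
      rw [← hemap]
      have h2 : (stdGaussian (EuclideanSpace ℝ (Fin (n + 1)))).map e =
        (stdGaussian (EuclideanSpace ℝ (Fin (n + 1)))).map e.toHomeomorph.toMeasurableEquiv := rfl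
      rw [h2, MeasurableEquiv.map_apply]
      congr 1
      exact preimage_image_eq S e.injective
    have hu' : e u = (‖u‖, 0) := by rw [he, hR, spl_single]
    have h3 := core (n := n) (K := e '' K) (hK.image e.continuous)
      (hc.linear_image (e : EuclideanSpace ℝ (Fin (n + 1)) →ₗ[ℝ] ℝ × (Fin n → ℝ)))
      (by
        rintro _ ⟨x, hx, rfl⟩
        exact ⟨-x, hs x hx, by simp⟩)
      (by rw [himg]; exact hγ) (norm_pos_iff.2 hu0) hu
    have h4 : bstar (e '' K) (‖u‖, 0) = e '' bstar K u := by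
      rw [← hu']
      exact (bstar_image e.toLinearEquiv K u).symm
    rw [h4, himg, himg] at h3
    exact h3

end Vale.Agent.Ban
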